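import Vale.Agent.P281.H64.Gen.SpecN

/-!
# P281, project T-V, block V14 (helper364): neat models, the common part (any relative dimension)
-/

open Set Filter Metric Vale.Agent.P281 Vale.Agent.P281.H713 Vale.Agent.P281.H64
open Vale.Agent.P281.H64.Gen
open scoped Topology ContDiff Manifold

noncomputable section

namespace Vale.Agent.P281.H364.Gen

/-- The end of the proof of the inequality, in every relative dimension: from the inequality for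
`f₁` with `c`, where `KapLe f₁ Δ₁ c`, to the inequality for `f` with `κ(f | Δ)`. The properties of
the orbifold base of `f₁` are a hypothesis. -/
theorem finish_aux (hBir : BirStmt) (hPush : PushStmt) {n p : ℕ}
    {X Y X₁ Y₁ : Type} [tX : TopologicalSpace X] [cX : ChartedSpace (Cm n) X]
    [tY : TopologicalSpace Y] [cY : ChartedSpace (Cm p) Y] [tX₁ : TopologicalSpace X₁]
    [cX₁ : ChartedSpace (Cm n) X₁] [tY₁ : TopologicalSpace Y₁] [cY₁ : ChartedSpace (Cm p) Y₁]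
    {f : X → Y} {Δ : Set X → ℝ} {f₁ : X₁ → Y₁} {Δ₁ : Set X₁ → ℝ} (hX : CompactSpace X)
    (hs : TZ.S.IsStep (Cm n) (Cm p) f₁ Δ₁ f Δ) {Γ : Set Y₁ → ℝ}
    (hΓ : Γ = TZ.S.base (Cm n) (Cm p) f₁ Δ₁)
    (hg : {G | Γ G ≠ 0}.Finite ∧ (∀ G, Γ G ≠ 0 → J.IsPrime (Cm p) G) ∧
      (∀ G, ∃ q : ℚ, Γ G = q ∧ 0 ≤ q ∧ q ≤ 1) ∧
      (∀ z G, Γ G ≠ 0 → f₁ z ∈ G →
        z ∈ closure {z' | (∃ G, Γ G ≠ 0 ∧ f₁ z' ∈ G) ∧
          ∀ᶠ y in 𝓝 (f₁ z'), TZ.S.SNCAt (Cm p) Γ y}) ∧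
      TZ.S.OrbMor (Cm n) (Cm p) f₁ Δ₁ Γ)
    {a c : WithBot ℕ∞} (hm : a + c ≤ TZ.S.kodX (Cm n) Δ₁)
    (hk : TZ.S.KapLe (Cm n) (Cm p) f₁ Δ₁ c) :
    a + TZ.S.kap (Cm n) (Cm p) ⟨X, Y, tX, tY, cX, cY, f, Δ⟩ ≤ TZ.S.kodX (Cm n) Δ := by
  have hlink : TZ.S.Linked (Cm n) (Cm p) ⟨X, Y, tX, tY, cX, cY, f, Δ⟩
      ⟨X₁, Y₁, tX₁, tY₁, cX₁, cY₁, f₁, Δ₁⟩ := .symm _ _ (.rel _ _ hs)
  have hkap : TZ.S.kap (Cm n) (Cm p) ⟨X, Y, tX, tY, cX, cY, f, Δ⟩ ≤ c := by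
    obtain ⟨g1, g2, g3, g4, g5⟩ := hg
    exact (hk _ g1 g2 g3 g4 g5).2 _ X₁ tX₁ cX₁ f₁ Δ₁ hlink hΓ
  obtain ⟨u, v, hu, -, -, -, -, hΔ, hΔ₁, hpush, -⟩ := hs
  have hbir : TZ.S.kodX (Cm n) Δ₁ ≤ TZ.S.kodX (Cm n) Δ := by
    refine hBir n X X₁ u Δ Δ₁ hu hΔ hΔ₁ fun D hD => ?_
    have hD' : J.IsPrime (Cm n) D := hΔ₁.2.1 D hD
    by_cases hex : D ⊆ excSet (Cm n) u
    · exact Or.inl hex
    · have hP := hPush n X X₁ u D hu hD' hex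
      exact Or.inr ⟨hP, hpush D hD' hP⟩
  exact (add_le_add le_rfl hkap).trans (hm.trans hbir)

/-- The end of the proof of `NeatStmt`, in every relative dimension. -/
theorem neat_finish (hB : Base1Stmt) (hBir : BirStmt) (hPush : PushStmt) {n p : ℕ}
    {X Y X₁ Y₁ : Type} [tX : TopologicalSpace X] [cX : ChartedSpace (Cm n) X]
    [tY : TopologicalSpace Y] [cY : ChartedSpace (Cm p) Y] [tX₁ : TopologicalSpace X₁]
    [cX₁ : ChartedSpace (Cm n) X₁] [tY₁ : TopologicalSpace Y₁] [cY₁ : ChartedSpace (Cm p) Y₁]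
    {f : X → Y} {Δ : Set X → ℝ} {f₁ : X₁ → Y₁} {Δ₁ : Set X₁ → ℝ} (hX : CompactSpace X)
    (h₁ : H511.Surf.IsFibration (Cm n) (Cm p) f₁ Δ₁)
    (hs : TZ.S.IsStep (Cm n) (Cm p) f₁ Δ₁ f Δ) (he : ExcOne (Cm n) (Cm p) f₁ Δ₁)
    {a c : WithBot ℕ∞} (hm : a + c ≤ TZ.S.kodX (Cm n) Δ₁)
    (hk : TZ.S.KapLe (Cm n) (Cm p) f₁ Δ₁ c) :
    a + TZ.S.kap (Cm n) (Cm p) ⟨X, Y, tX, tY, cX, cY, f, Δ⟩ ≤ TZ.S.kodX (Cm n) Δ := by
  obtain ⟨⟨_, _⟩, _, _, ⟨_, _⟩, hf₁, hc₁, hΔ₁⟩ := h₁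
  exact finish_aux hBir hPush hX hs rfl (hB n p X₁ Y₁ f₁ Δ₁ hf₁ hc₁ hΔ₁ he _ rfl) hm hk

/-- Theorem CO (`H713.CO.comp_g`), for a fibration. -/
def CompStmt : Prop :=
  ∀ (n p : ℕ) (X Y : Type) [TopologicalSpace X] [T2Space X] [CompactSpace X] [ConnectedSpace X]
    [ChartedSpace (Cm n) X] [IsManifold 𝓘(ℂ, Cm n) ω X] [TopologicalSpace Y] [T2Space Y]
    [ChartedSpace (Cm p) Y] [IsManifold 𝓘(ℂ, Cm p) ω Y] (f : X → Y) (Δ : Set X → ℝ),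
    ContMDiff 𝓘(ℂ, Cm n) 𝓘(ℂ, Cm p) ω f → J.IsSNC (Cm n) Δ →
    (∃ z, Function.Surjective (mfderiv 𝓘(ℂ, Cm n) 𝓘(ℂ, Cm p) f z)) →
    TZ.S.OrbLe (Cm n) (Cm p) f Δ (TZ.S.kodF n p Δ (id : X → X) f)

/-- A fibration is submersive somewhere. -/
theorem exists_submersive (hC : CritStmt) (hK : ComplStmt) {n p : ℕ} {X Y : Type}
    [TopologicalSpace X] [T2Space X] [CompactSpace X] [ConnectedSpace X]
    [ChartedSpace (Cm n) X] [IsManifold 𝓘(ℂ, Cm n) ω X] [TopologicalSpace Y] [T2Space Y]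
    [ChartedSpace (Cm p) Y] [IsManifold 𝓘(ℂ, Cm p) ω Y] {f : X → Y}
    (hf : ContMDiff 𝓘(ℂ, Cm n) 𝓘(ℂ, Cm p) ω f) (hc : ∀ y, IsConnected (f ⁻¹' {y})) :
    ∃ z, Function.Surjective (mfderiv 𝓘(ℂ, Cm n) 𝓘(ℂ, Cm p) f z) := by
  have hsurj : Function.Surjective f := fun y => (hc y).nonempty
  have : PreconnectedSpace Y := by
    rw [preconnectedSpace_iff_univ, ← hsurj.range_eq]
    exact isPreconnected_range hf.continuous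
  have : Nonempty Y := by
    obtain ⟨x⟩ : Nonempty X := inferInstance
    exact ⟨f x⟩
  obtain ⟨S, hS, hP⟩ := hC n p X Y f hf hc
  have h1 : IsProperFibration (n := n) (p := p) f S := hP S subset_rfl hS.1
  obtain ⟨y, hy⟩ := (hK p Y S hS).1.nonempty
  obtain ⟨x, hx⟩ := hsurj y
  exact ⟨x, h1.submersive x (by rw [hx]; exact hy)⟩

/-- `KapLe` for a fibration -/
theorem kapLe_of (hC : CritStmt) (hK : ComplStmt) (hO : CompStmt) {n p : ℕ} {X Y : Type}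
    [TopologicalSpace X] [ChartedSpace (Cm n) X] [TopologicalSpace Y] [ChartedSpace (Cm p) Y]
    {f : X → Y} {Δ : Set X → ℝ} (h : H511.Surf.IsFibration (Cm n) (Cm p) f Δ) :
    TZ.S.KapLe (Cm n) (Cm p) f Δ (TZ.S.kodF n p Δ (id : X → X) f) := by
  obtain ⟨⟨_, _⟩, _, _, ⟨_, _⟩, hf, hc, hΔ⟩ := h
  have hle : TZ.S.OrbLe (Cm n) (Cm p) f Δ (TZ.S.kodF n p Δ (id : X → X) f) :=
    hO n p X Y f Δ hf hΔ (exists_submersive hC hK hf hc)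
  intro Γ h1 h2 h3 h4 h5
  have h6 := hle Γ h1 h2 h3 h4 h5
  refine ⟨h6, ?_⟩
  intro M₀ X₁ tX cX f₁ Δ₁ hL hΓ
  refine le_trans (iInf₂_le _ hL) ?_
  rw [← hΓ]
  exact h6

/-- **The common last step of the theorems on neat models** (helper64 #3930): no fibre of `f₁` is
used. -/
theorem neat_finish' (hB0 : BaseStmt) (hB : Base1Stmt) (hBir : BirStmt) (hPush : PushStmt)
    (hC : CritStmt) (hK : ComplStmt) (hO : CompStmt) {n p : ℕ}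
    {X Y X₁ Y₁ : Type} [tX : TopologicalSpace X] [cX : ChartedSpace (Cm n) X]
    [tY : TopologicalSpace Y] [cY : ChartedSpace (Cm p) Y] [tX₁ : TopologicalSpace X₁]
    [cX₁ : ChartedSpace (Cm n) X₁] [tY₁ : TopologicalSpace Y₁] [cY₁ : ChartedSpace (Cm p) Y₁]
    {f : X → Y} {Δ : Set X → ℝ} {f₁ : X₁ → Y₁} {Δ₁ : Set X₁ → ℝ}
    (h : H511.Surf.IsFibration (Cm n) (Cm p) f Δ)
    (h₁ : H511.Surf.IsFibration (Cm n) (Cm p) f₁ Δ₁)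
    (hs : TZ.S.IsStep (Cm n) (Cm p) f₁ Δ₁ f Δ)
    (he : NoExc (Cm n) (Cm p) f₁ ∨ ExcOne (Cm n) (Cm p) f₁ Δ₁) {a : WithBot ℕ∞}
    (hm : a + TZ.S.kodF n p Δ₁ (id : X₁ → X₁) f₁ ≤ TZ.S.kodX (Cm n) Δ₁) :
    a + TZ.S.kap (Cm n) (Cm p) ⟨X, Y, tX, tY, cX, cY, f, Δ⟩ ≤ TZ.S.kodX (Cm n) Δ := by
  have hk := kapLe_of hC hK hO h₁
  have hX := h.compact
  obtain ⟨⟨_, _⟩, _, _, ⟨_, _⟩, hf₁, hc₁, hΔ₁⟩ := h₁
  rcases he with he | he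
  · exact finish_aux hBir hPush hX hs rfl (hB0 n p X₁ Y₁ f₁ Δ₁ hf₁ hc₁ hΔ₁ he _ rfl) hm hk
  · exact finish_aux hBir hPush hX hs rfl (hB n p X₁ Y₁ f₁ Δ₁ hf₁ hc₁ hΔ₁ he _ rfl) hm hk

/-- The target of a modification of a compact space is compact. -/
theorem compact_of_modif {n : ℕ} {X X₁ : Type} [TopologicalSpace X] [ChartedSpace (Cm n) X]
    [TopologicalSpace X₁] [ChartedSpace (Cm n) X₁] [CompactSpace X₁] {u : X₁ → X}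
    (hu : TZ.S.IsModif (Cm n) u) : CompactSpace X := by
  obtain ⟨⟨hT, -, -, -⟩, hc, -, U, -, hU, -, hex⟩ := hu
  have hcl : IsClosed (range u) := (isCompact_range hc.continuous).isClosed
  have hsub : U ⊆ range u := fun x hx => by
    obtain ⟨z, hz, -⟩ := hex x hx
    exact ⟨z, hz⟩
  have huniv : range u = univ := by
    rw [eq_univ_iff_forall]
    intro x
    have h5 : closure U ⊆ range u := closure_minimal hsub hcl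
    exact h5 (by rw [hU.closure_eq]; trivial)
  exact ⟨by rw [← huniv]; exact isCompact_range hc.continuous⟩

end Vale.Agent.P281.H364.Gen
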