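import Vale.Agent.P281.H64.Gen.Spec

/-!
# P281, project T-V, block V4 (helper364): generic smoothness from V1
-/

open Set Filter Metric Vale.Agent.P281 Vale.Agent.P281.J Vale.Agent.P281.H713
open Vale.Agent.P281.H64.Gen
open Vale.Agent.P281.H64.Thin (IsThinSet)
open scoped Topology ContDiff Manifold

noncomputable section

namespace Vale.Agent.P281.H364

/-- A linear map `L : ℂ^n → ℂ^p` is onto iff some `det (L v_1, ..., L v_p)` is not `0`. -/
theorem surj_iff_det {n p : ℕ} (L : (Fin n → ℂ) →L[ℂ] (Fin p → ℂ)) :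
    Function.Surjective L ↔
      ∃ v : Fin p → (Fin n → ℂ), Matrix.det (Matrix.of fun i j => L (v j) i) ≠ 0 := by
  constructor
  · intro h
    choose v hv using fun j : Fin p => h (Pi.single j 1)
    refine ⟨v, ?_⟩
    have : (Matrix.of fun i j => L (v j) i : Matrix (Fin p) (Fin p) ℂ) = 1 := by
      ext i j
      simp only [Matrix.of_apply, hv, Matrix.one_apply, Pi.single_apply]
    rw [this, Matrix.det_one]
    exact one_ne_zero
  · rintro ⟨v, hv⟩ y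
    set M : Matrix (Fin p) (Fin p) ℂ := Matrix.of fun i j => L (v j) i with hM
    have hu : IsUnit M.det := isUnit_iff_ne_zero.mpr hv
    refine ⟨∑ j, (M⁻¹.mulVec y) j • v j, ?_⟩
    have h1 : M.mulVec (M⁻¹.mulVec y) = y := by
      rw [Matrix.mulVec_mulVec, Matrix.mul_nonsing_inv _ hu, Matrix.one_mulVec]
    rw [map_sum]
    ext i
    rw [Finset.sum_apply]
    have h2 := congrFun h1 i
    rw [Matrix.mulVec, dotProduct] at h2
    rw [← h2]
    refine Finset.sum_congr rfl fun j _ => ?_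
    rw [map_smul, Pi.smul_apply, smul_eq_mul, hM, Matrix.of_apply, mul_comm]

section
variable {E E' X Y : Type} [NormedAddCommGroup E] [NormedSpace ℂ E] [NormedAddCommGroup E']
  [NormedSpace ℂ E'] [TopologicalSpace X] [ChartedSpace E X] [IsManifold 𝓘(ℂ, E) ω X]
  [TopologicalSpace Y] [ChartedSpace E' Y] [IsManifold 𝓘(ℂ, E') ω Y]

theorem man_one (E X : Type) [NormedAddCommGroup E] [NormedSpace ℂ E] [TopologicalSpace X]
    [ChartedSpace E X] [IsManifold 𝓘(ℂ, E) ω X] : IsManifold 𝓘(ℂ, E) 1 X :=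
  IsManifold.of_le (n := ω) le_top

/-- `f` in the charts at `x₀` and `y₀`. -/
def loc (f : X → Y) (x₀ : X) (y₀ : Y) : E → E' :=
  fun w => chartAt E' y₀ (f ((chartAt E x₀).symm w))

theorem loc_contDiffAt {f : X → Y} (x₀ : X) (y₀ : Y) {z : X} (hf : ContMDiffAt 𝓘(ℂ, E) 𝓘(ℂ, E') ω f z)
    (hz : z ∈ (chartAt E x₀).source) (hfz : f z ∈ (chartAt E' y₀).source) :
    ContDiffAt ℂ ω (loc (E := E) (E' := E') f x₀ y₀) (chartAt E x₀ z) := by
  rw [← contMDiffAt_iff_contDiffAt]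
  have hs : (chartAt E x₀).symm (chartAt E x₀ z) = z := (chartAt E x₀).left_inv hz
  have h1 : ContMDiffAt 𝓘(ℂ, E) 𝓘(ℂ, E) ω (chartAt E x₀).symm (chartAt E x₀ z) :=
    contMDiffAt_symm_of_mem_maximalAtlas (IsManifold.chart_mem_maximalAtlas x₀)
      ((chartAt E x₀).map_source hz)
  have h2 : ContMDiffAt 𝓘(ℂ, E) 𝓘(ℂ, E') ω f ((chartAt E x₀).symm (chartAt E x₀ z)) := by
    rw [hs]; exact hf
  have h3 : ContMDiffAt 𝓘(ℂ, E') 𝓘(ℂ, E') ω (chartAt E' y₀)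
      (f ((chartAt E x₀).symm (chartAt E x₀ z))) := by
    rw [hs]
    exact contMDiffAt_of_mem_maximalAtlas (IsManifold.chart_mem_maximalAtlas y₀) hfz
  exact h3.comp (chartAt E x₀ z) (h2.comp (chartAt E x₀ z) h1)

theorem surj_loc {f : X → Y} (x₀ : X) (y₀ : Y) {z : X} (hf : ContMDiffAt 𝓘(ℂ, E) 𝓘(ℂ, E') ω f z)
    (hz : z ∈ (chartAt E x₀).source) (hfz : f z ∈ (chartAt E' y₀).source) :
    Function.Surjective (mfderiv 𝓘(ℂ, E) 𝓘(ℂ, E') f z) ↔
      Function.Surjective (fderiv ℂ (loc (E := E) (E' := E') f x₀ y₀) (chartAt E x₀ z)) := by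
  have := man_one E X
  have := man_one E' Y
  have hs : (chartAt E x₀).symm (chartAt E x₀ z) = z := (chartAt E x₀).left_inv hz
  have hC := mdifferentiable_chart (I := 𝓘(ℂ, E)) x₀
  have hC' := mdifferentiable_chart (I := 𝓘(ℂ, E')) y₀
  have ht : chartAt E x₀ z ∈ (chartAt E x₀).symm.source := (chartAt E x₀).map_source hz
  have h1 := hC.symm.mdifferentiableAt ht
  have h2 : MDifferentiableAt 𝓘(ℂ, E) 𝓘(ℂ, E') f ((chartAt E x₀).symm (chartAt E x₀ z)) := by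
    rw [hs]; exact hf.mdifferentiableAt (by simp)
  have h3 : MDifferentiableAt 𝓘(ℂ, E') 𝓘(ℂ, E') (chartAt E' y₀)
      (f ((chartAt E x₀).symm (chartAt E x₀ z))) := by
    rw [hs]; exact hC'.mdifferentiableAt hfz
  have h4 : mfderiv 𝓘(ℂ, E) 𝓘(ℂ, E') (loc (E := E) (E' := E') f x₀ y₀) (chartAt E x₀ z) =
      (mfderiv 𝓘(ℂ, E') 𝓘(ℂ, E') (chartAt E' y₀)
        (f ((chartAt E x₀).symm (chartAt E x₀ z)))).comp
      ((mfderiv 𝓘(ℂ, E) 𝓘(ℂ, E') f ((chartAt E x₀).symm (chartAt E x₀ z))).comp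
        (mfderiv 𝓘(ℂ, E) 𝓘(ℂ, E) (chartAt E x₀).symm (chartAt E x₀ z))) := by
    have e1 : loc (E := E) (E' := E') f x₀ y₀ =
        (chartAt E' y₀) ∘ (f ∘ (chartAt E x₀).symm) := rfl
    rw [e1, mfderiv_comp (chartAt E x₀ z) h3 (h2.comp _ h1), mfderiv_comp (chartAt E x₀ z) h2 h1]
    rfl
  have b1 := hC.symm.mfderiv_bijective ht
  have b2 : Function.Bijective (mfderiv 𝓘(ℂ, E') 𝓘(ℂ, E') (chartAt E' y₀)
        (f ((chartAt E x₀).symm (chartAt E x₀ z)))) := by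
    rw [hs]; exact hC'.mfderiv_bijective hfz
  rw [mfderiv_eq_fderiv] at h4
  have h5 : Function.Surjective (fderiv ℂ (loc (E := E) (E' := E') f x₀ y₀) (chartAt E x₀ z)) ↔
      Function.Surjective (mfderiv 𝓘(ℂ, E) 𝓘(ℂ, E') f ((chartAt E x₀).symm (chartAt E x₀ z))) := by
    rw [h4]
    constructor
    · intro h y
      obtain ⟨v, hv⟩ := h (mfderiv 𝓘(ℂ, E') 𝓘(ℂ, E') (chartAt E' y₀)
        (f ((chartAt E x₀).symm (chartAt E x₀ z))) y)
      exact ⟨_, b2.1 hv⟩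
    · intro h
      exact b2.2.comp (h.comp b1.2)
  rw [h5, hs]

end

/-- The critical set of `f`. -/
def critSet {n p : ℕ} {X Y : Type} [TopologicalSpace X] [ChartedSpace (Fin n → ℂ) X]
    [TopologicalSpace Y] [ChartedSpace (Fin p → ℂ) Y] (f : X → Y) : Set X :=
  {x | ¬ Function.Surjective (mfderiv 𝓘(ℂ, Fin n → ℂ) 𝓘(ℂ, Fin p → ℂ) f x)}

theorem critSet_analytic {n p : ℕ} {X Y : Type} [TopologicalSpace X]
    [ChartedSpace (Fin n → ℂ) X] [IsManifold 𝓘(ℂ, Fin n → ℂ) ω X] [TopologicalSpace Y]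
    [ChartedSpace (Fin p → ℂ) Y] [IsManifold 𝓘(ℂ, Fin p → ℂ) ω Y] {f : X → Y}
    (hf : ContMDiff 𝓘(ℂ, Fin n → ℂ) 𝓘(ℂ, Fin p → ℂ) ω f) :
    IsAnalyticSet (Fin n → ℂ) (critSet (n := n) (p := p) f) := by
  intro x₀
  set χ := chartAt (Fin n → ℂ) x₀ with hχ
  set χ' := chartAt (Fin p → ℂ) (f x₀) with hχ'
  set F : (Fin n → ℂ) → (Fin p → ℂ) :=
    loc (E := Fin n → ℂ) (E' := Fin p → ℂ) f x₀ (f x₀) with hF
  refine ⟨χ.source ∩ f ⁻¹' χ'.source, Fin p → (Fin n → ℂ),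
    fun v z => Matrix.det (Matrix.of fun i j => fderiv ℂ F (χ z) (v j) i),
    χ.open_source.inter (χ'.open_source.preimage hf.continuous),
    ⟨mem_chart_source _ x₀, mem_chart_source _ (f x₀)⟩, ?_, ?_⟩
  · intro v z hz
    have h1 : ContMDiffAt 𝓘(ℂ, Fin n → ℂ) 𝓘(ℂ, Fin n → ℂ) ω χ z :=
      contMDiffAt_of_mem_maximalAtlas (IsManifold.chart_mem_maximalAtlas x₀) hz.1
    have h2 : ContDiffAt ℂ ω F (χ z) := loc_contDiffAt x₀ (f x₀) (hf z) hz.1 hz.2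
    have h3 : ContDiffAt ℂ ω (fderiv ℂ F) (χ z) := h2.fderiv_right (by simp)
    have h4 : ContDiffAt ℂ ω
        (fun w => Matrix.det (Matrix.of fun i j => fderiv ℂ F w (v j) i)) (χ z) := by
      simp only [Matrix.det_apply]
      refine ContDiffAt.sum fun σ _ => ?_
      refine ContDiffAt.const_smul _ ?_
      refine contDiffAt_prod fun i _ => ?_
      simp only [Matrix.of_apply]
      have h5 : ContDiffAt ℂ ω (fun w => fderiv ℂ F w (v i)) (χ z) :=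
        h3.clm_apply contDiffAt_const
      exact (contDiffAt_pi.mp h5) (σ i)
    exact (contMDiffAt_iff_contDiffAt.mpr h4).comp z h1
  · intro z hz
    have h1 := surj_loc (E := Fin n → ℂ) (E' := Fin p → ℂ) x₀ (f x₀) (hf z) hz.1 hz.2
    rw [surj_iff_det] at h1
    change ¬ Function.Surjective (mfderiv 𝓘(ℂ, Fin n → ℂ) 𝓘(ℂ, Fin p → ℂ) f z) ↔ _
    rw [h1]
    push Not
    rfl

theorem IsAnalyticSet.isClosed {E X : Type} [NormedAddCommGroup E] [NormedSpace ℂ E]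
    [TopologicalSpace X] [ChartedSpace E X] {A : Set X} (hA : IsAnalyticSet E A) :
    IsClosed A := by
  rw [← isOpen_compl_iff, isOpen_iff_mem_nhds]
  intro x hx
  obtain ⟨U, ι, h, hU, hxU, hh, hA⟩ := hA x
  have : ∃ i, h i x ≠ 0 := by
    by_contra hc
    push Not at hc
    exact hx ((hA x hxU).mpr hc)
  obtain ⟨i, hi⟩ := this
  filter_upwards [hU.mem_nhds hxU, (hh i x hxU).continuousAt.eventually_ne hi] with z hz hz' hzA
  exact hz' ((hA z hz).mp hzA i)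

/-- **V4**. -/
theorem crit (hV1 : ImgStmt) : CritStmt := by
  intro n p X Y _ _ _ _ _ _ _ _ _ f hf hc
  have hA := critSet_analytic (n := n) (p := p) hf
  have hAc : IsClosed (critSet (n := n) (p := p) f) := IsAnalyticSet.isClosed hA
  obtain ⟨H, hH, hS⟩ := hV1 n p X Y f (critSet (n := n) (p := p) f) hf hA (by
    intro m φ hφ v hv hs
    have h1 : MDifferentiableAt 𝓘(ℂ, (Fin m → ℂ)) 𝓘(ℂ, (Fin n → ℂ)) φ v :=
      (hφ v hv).1.mdifferentiableAt (by simp)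
    have h2 : MDifferentiableAt 𝓘(ℂ, (Fin n → ℂ)) 𝓘(ℂ, (Fin p → ℂ)) f (φ v) :=
      (hf (φ v)).mdifferentiableAt (by simp)
    have h3 : mfderiv 𝓘(ℂ, (Fin m → ℂ)) 𝓘(ℂ, (Fin p → ℂ)) (fun v => f (φ v)) v =
        (mfderiv 𝓘(ℂ, (Fin n → ℂ)) 𝓘(ℂ, (Fin p → ℂ)) f (φ v)).comp
          (mfderiv 𝓘(ℂ, (Fin m → ℂ)) 𝓘(ℂ, (Fin n → ℂ)) φ v) := mfderiv_comp v h2 h1
    apply (hφ v hv).2
    intro y
    obtain ⟨ξ, hξ⟩ := hs y
    rw [h3] at hξ
    exact ⟨_, hξ⟩)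
  have hSc : IsClosed (f '' critSet (n := n) (p := p) f) :=
    (hAc.isCompact.image hf.continuous).isClosed
  refine ⟨f '' critSet (n := n) (p := p) f, ⟨hSc, H, hH, hS⟩, fun S' hSS' hS' => ?_⟩
  refine ⟨hS', fun K hK _ => (hK.isClosed.preimage hf.continuous).isCompact, fun x hx => ?_,
    fun y _ => hc y⟩
  by_contra hns
  exact hx (hSS' ⟨x, hns, rfl⟩)

end Vale.Agent.P281.H364
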