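import Vale.Agent.P281.H64.Gen.SpecF

/-!
# P281, project T-V (helper364): the final theorem in relative dimension one, definitions and the
combination of the two parts
-/

open Set Filter Metric Vale.Agent.P281 Vale.Agent.P281.H713 Vale.Agent.P281.H64
open Vale.Agent.P281.H64.Gen
open Vale.Agent.P281.H64.Thin (IsThinSet)
open scoped Topology ContDiff Manifold

noncomputable section

namespace Vale.Agent.P281.H364.Gen

section
variable (E E' : Type) [NormedAddCommGroup E] [NormedSpace ℂ E] [NormedAddCommGroup E']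
  [NormedSpace ℂ E'] {X Y : Type} [TopologicalSpace X] [ChartedSpace E X] [TopologicalSpace Y]
  [ChartedSpace E' Y]

/-- The fibration `f : (X, Δ) → Y` has a neat model `f₁ : (X₁, Δ₁) → Y₁`: a fibration, with a
commutative square `f ∘ u = v ∘ f₁` as in `IsStep`, whose exceptional divisors have coefficient one
in `Δ₁`, and whose orbifold base `B(f₁, Δ₁)` has simple normal crossings. -/
def HasNeat (f : X → Y) (Δ : Set X → ℝ) : Prop :=
  ∃ (X₁ Y₁ : Type) (_ : TopologicalSpace X₁) (_ : ChartedSpace E X₁) (_ : TopologicalSpace Y₁)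
    (_ : ChartedSpace E' Y₁) (f₁ : X₁ → Y₁) (Δ₁ : Set X₁ → ℝ),
    H511.Surf.IsFibration E E' f₁ Δ₁ ∧ TZ.S.IsStep E E' f₁ Δ₁ f Δ ∧ ExcOne E E' f₁ Δ₁

end

/-- T-V, first part (`H511.Gen.tvFin` for `E₀ = Cm 1`) -/
def TVFinStmt : Prop :=
  ∀ (p : ℕ) (X Y : Type) [TopologicalSpace X] [ChartedSpace (Cm (p + 1)) X] [TopologicalSpace Y]
    [ChartedSpace (Cm p) Y] (f : X → Y) (Δ : Set X → ℝ),
    H511.Surf.IsFibration (Cm (p + 1)) (Cm p) f Δ →
    ∃ H : ℕ → Set Y, (∀ k, IsThinSet (Cm p) (H k)) ∧ ∀ y, (∀ k, y ∉ H k) →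
      ∀ (F : Type) [TopologicalSpace F] [ChartedSpace (Cm 1) F] (i : F → X),
        H511.Surf.IsFibre (Cm (p + 1)) (Cm 1) f y i →
        (TZ.S.kodR (Cm (p + 1)) (Cm 1) i Δ + TZ.S.kodF (p + 1) p Δ (id : X → X) f ≤
            TZ.S.kodX (Cm (p + 1)) Δ ∧
          TZ.S.KapLe (Cm (p + 1)) (Cm p) f Δ (TZ.S.kodF (p + 1) p Δ (id : X → X) f)) ∧
        (NoExc (Cm (p + 1)) (Cm p) f → H511.Surf.Q1 (Cm (p + 1)) (Cm p) (Cm 1) f Δ i)

/-- the final theorem in relative dimension one, from its two parts -/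
theorem fin_of (hT : TVFinStmt) (hN : NeatFStmt) {p : ℕ} {X Y : Type} [TopologicalSpace X]
    [ChartedSpace (Cm (p + 1)) X] [TopologicalSpace Y] [ChartedSpace (Cm p) Y] (f : X → Y)
    (Δ : Set X → ℝ) (h : H511.Surf.IsFibration (Cm (p + 1)) (Cm p) f Δ) :
    ∃ H : ℕ → Set Y, (∀ k, IsThinSet (Cm p) (H k)) ∧ ∀ y, (∀ k, y ∉ H k) →
      ∀ (F : Type) [TopologicalSpace F] [ChartedSpace (Cm 1) F] (i : F → X),
        H511.Surf.IsFibre (Cm (p + 1)) (Cm 1) f y i →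
        (TZ.S.kodR (Cm (p + 1)) (Cm 1) i Δ + TZ.S.kodF (p + 1) p Δ (id : X → X) f ≤
            TZ.S.kodX (Cm (p + 1)) Δ ∧
          TZ.S.KapLe (Cm (p + 1)) (Cm p) f Δ (TZ.S.kodF (p + 1) p Δ (id : X → X) f)) ∧
        (NoExc (Cm (p + 1)) (Cm p) f ∨ HasNeat (Cm (p + 1)) (Cm p) f Δ →
          H511.Surf.Q1 (Cm (p + 1)) (Cm p) (Cm 1) f Δ i) := by
  obtain ⟨H, hH, hmain⟩ := hT p X Y f Δ h
  by_cases hn : HasNeat (Cm (p + 1)) (Cm p) f Δ
  · obtain ⟨X₁, Y₁, _, _, _, _, f₁, Δ₁, h₁, hs, he⟩ := id hn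
    obtain ⟨H', hH', hmain'⟩ := hN p X Y X₁ Y₁ f Δ f₁ Δ₁ h h₁ hs he
    obtain ⟨K, hK⟩ : ∃ K : ℕ → Set Y, K = fun k =>
        Sum.elim H H' (Equiv.natSumNatEquivNat.symm k) := ⟨_, rfl⟩
    have hKl : ∀ j, K (Equiv.natSumNatEquivNat (Sum.inl j)) = H j := fun j => by
      rw [hK]
      show Sum.elim H H' (Equiv.natSumNatEquivNat.symm (Equiv.natSumNatEquivNat (Sum.inl j))) = _
      rw [Equiv.symm_apply_apply]
      rfl
    have hKr : ∀ j, K (Equiv.natSumNatEquivNat (Sum.inr j)) = H' j := fun j => by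
      rw [hK]
      show Sum.elim H H' (Equiv.natSumNatEquivNat.symm (Equiv.natSumNatEquivNat (Sum.inr j))) = _
      rw [Equiv.symm_apply_apply]
      rfl
    refine ⟨K, fun k => ?_, fun y hy F _ _ i hi => ?_⟩
    · obtain ⟨j, rfl⟩ := Equiv.natSumNatEquivNat.surjective k
      rcases j with j | j
      · rw [hKl]
        exact hH j
      · rw [hKr]
        exact hH' j
    · have h1 : ∀ k, y ∉ H k := fun k => by
        rw [← hKl]
        exact hy _
      have h2 : ∀ k, y ∉ H' k := fun k => by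
        rw [← hKr]
        exact hy _
      exact ⟨(hmain y h1 F i hi).1, fun _ => hmain' y h2 F i hi⟩
  · refine ⟨H, hH, fun y hy F _ _ i hi => ?_⟩
    obtain ⟨h1, h2⟩ := hmain y hy F i hi
    exact ⟨h1, fun h3 => h3.elim h2 fun h4 => absurd h4 hn⟩

end Vale.Agent.P281.H364.Gen
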