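import Vale.Agent.P281.H364.Gen.Neat
import Vale.Agent.P281.H364.Gen.FinD
import Vale.Agent.P281.H349.NF.NeatF
import Vale.Agent.P281.H383.KN.Main

/-!
# P281, project T-V (helper364): Campana's inequality in relative dimension one, final form
-/

open Set Filter Metric Vale.Agent.P281 Vale.Agent.P281.H713 Vale.Agent.P281.H64
open Vale.Agent.P281.H64.Gen
open Vale.Agent.P281.H64.Thin (IsThinSet)
open scoped Topology ContDiff Manifold

noncomputable section

namespace Vale.Agent.P281.H364.Gen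

theorem tvFinStmt : TVFinStmt := fun _ _ _ _ _ _ _ f Δ h => H511.Gen.tvFin (by simp) f Δ h

theorem neatFStmt : NeatFStmt :=
  H349.NF.neatF neatStmt H383.KN.genN H383.KN.imgN H737.Gen.exc H303.Gen.pushStmt H303.Gen.irr

/-- **The final theorem in relative dimension one.** -/
theorem fin {p : ℕ} {X Y : Type} [TopologicalSpace X]
    [ChartedSpace (Cm (p + 1)) X] [TopologicalSpace Y] [ChartedSpace (Cm p) Y] (f : X → Y)
    (Δ : Set X → ℝ) (h : H511.Surf.IsFibration (Cm (p + 1)) (Cm p) f Δ) :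
    ∃ H : ℕ → Set Y, (∀ k, IsThinSet (Cm p) (H k)) ∧ ∀ y, (∀ k, y ∉ H k) →
      ∀ (F : Type) [TopologicalSpace F] [ChartedSpace (Cm 1) F] (i : F → X),
        H511.Surf.IsFibre (Cm (p + 1)) (Cm 1) f y i →
        (TZ.S.kodR (Cm (p + 1)) (Cm 1) i Δ + TZ.S.kodF (p + 1) p Δ (id : X → X) f ≤
            TZ.S.kodX (Cm (p + 1)) Δ ∧
          TZ.S.KapLe (Cm (p + 1)) (Cm p) f Δ (TZ.S.kodF (p + 1) p Δ (id : X → X) f)) ∧
        (NoExc (Cm (p + 1)) (Cm p) f ∨ HasNeat (Cm (p + 1)) (Cm p) f Δ →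
          H511.Surf.Q1 (Cm (p + 1)) (Cm p) (Cm 1) f Δ i) :=
  fin_of tvFinStmt neatFStmt f Δ h

end Vale.Agent.P281.H364.Gen
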