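import Vale.Agent.P281.H364.Gen.NeatA
import Vale.Agent.P281.H383.Gen.Base1
import Vale.Agent.P281.H308.Bir.Main
import Vale.Agent.P281.H485.Gen.Har
import Vale.Agent.P281.H737.Gen.Exc
import Vale.Agent.P281.H303.Gen.Push
import Vale.Agent.P281.H303.Gen.Irr

/-!
# P281, project T-V, block V14 (helper364): neat models
-/

open Set Filter Metric Vale.Agent.P281 Vale.Agent.P281.H713 Vale.Agent.P281.H64
open Vale.Agent.P281.H64.Gen
open Vale.Agent.P281.H713.TZ.S (kodF_eq)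
open scoped Topology ContDiff Manifold

noncomputable section

namespace Vale.Agent.P281.H364.Gen

theorem base0 : BaseStmt :=
  H399.Gen.base H303.Gen.irr H969.Gen.fin (H364.crit H150.Gen.img) H383.Gen.compl

theorem base1 : Base1Stmt :=
  H383.Gen.base1 H303.Gen.irr H969.Gen.fin (H364.crit H150.Gen.img) H383.Gen.compl

theorem bir : BirStmt := H308.Bir.bir H485.Gen.har H737.Gen.exc

theorem compStmt : CompStmt := by
  intro n p X Y _ _ _ _ _ _ _ _ _ _ f Δ hf hΔ hsub Γ hΓ₁ hΓ₂ hΓ₃ hnc hmor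
  rw [kodF_eq]
  exact H713.CO.comp_g H413.TZ.genPart hΔ H511.Gen.isBigOpen_id hf hsub ⟨hΓ₁, hΓ₂, hΓ₃⟩ hnc hΔ
    (H511.Gen.isRestriction_id Δ) hmor

/-- **V14** -/
theorem neatStmt : NeatStmt := neat base1 bir H303.Gen.pushStmt

/-- the common last step for neat models, in every relative dimension, unconditional -/
theorem neatFin {n p : ℕ} {X Y X₁ Y₁ : Type} [tX : TopologicalSpace X]
    [cX : ChartedSpace (Cm n) X] [tY : TopologicalSpace Y] [cY : ChartedSpace (Cm p) Y]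
    [tX₁ : TopologicalSpace X₁] [cX₁ : ChartedSpace (Cm n) X₁] [tY₁ : TopologicalSpace Y₁]
    [cY₁ : ChartedSpace (Cm p) Y₁] {f : X → Y} {Δ : Set X → ℝ} {f₁ : X₁ → Y₁}
    {Δ₁ : Set X₁ → ℝ} (h : H511.Surf.IsFibration (Cm n) (Cm p) f Δ)
    (h₁ : H511.Surf.IsFibration (Cm n) (Cm p) f₁ Δ₁)
    (hs : TZ.S.IsStep (Cm n) (Cm p) f₁ Δ₁ f Δ)
    (he : NoExc (Cm n) (Cm p) f₁ ∨ ExcOne (Cm n) (Cm p) f₁ Δ₁) {a : WithBot ℕ∞}
    (hm : a + TZ.S.kodF n p Δ₁ (id : X₁ → X₁) f₁ ≤ TZ.S.kodX (Cm n) Δ₁) :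
    a + TZ.S.kap (Cm n) (Cm p) ⟨X, Y, tX, tY, cX, cY, f, Δ⟩ ≤ TZ.S.kodX (Cm n) Δ :=
  neat_finish' base0 base1 bir H303.Gen.pushStmt (H364.crit H150.Gen.img) H383.Gen.compl compStmt
    h h₁ hs he hm

end Vale.Agent.P281.H364.Gen
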