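import Vale.Agent.P281.H364.Gen.NeatD
import Vale.Agent.P281.H511.Gen.TVFin

/-!
# P281, project T-V, block V14 (helper364): neat models, relative dimension one
-/

open Set Filter Metric Vale.Agent.P281 Vale.Agent.P281.H713 Vale.Agent.P281.H64
open Vale.Agent.P281.H64.Gen
open Vale.Agent.P281.H64.Thin (IsThinSet)
open scoped Topology ContDiff Manifold

noncomputable section

namespace Vale.Agent.P281.H364.Gen

/-- **V14**, from V12, V13c and V13d -/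
theorem neat (hB : Base1Stmt) (hBir : BirStmt) (hPush : PushStmt) : NeatStmt := by
  intro p X Y X₁ Y₁ tX cX tY cY tX₁ cX₁ tY₁ cY₁ f Δ f₁ Δ₁ h h₁ hs he
  obtain ⟨H, hH, hmain⟩ := H511.Gen.tvFin (E₀ := Cm 1) (by simp) f₁ Δ₁ h₁
  refine ⟨H, hH, fun y hy F _ _ i hi => ?_⟩
  obtain ⟨⟨hm, hk⟩, -⟩ := hmain y hy F i hi
  exact neat_finish hB hBir hPush h.compact h₁ hs he hm hk

/-- **T-V**, final form with neat models: for the same thin sets `H k` of `Y`, if `f : (X, Δ) → Y` is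
a neat model of `f₀ : (X₀, Δ₀) → Y₀`, then the inequality of Q1 holds for `f₀`. -/
theorem tvNeat (hB : Base1Stmt) (hBir : BirStmt) (hPush : PushStmt) {p : ℕ} {E₀ : Type}
    [NormedAddCommGroup E₀] [NormedSpace ℂ E₀] [FiniteDimensional ℂ E₀]
    (hE₀ : Module.finrank ℂ E₀ = 1) {X Y : Type} [TopologicalSpace X]
    [ChartedSpace (Cm (p + 1)) X] [TopologicalSpace Y] [ChartedSpace (Cm p) Y] (f : X → Y)
    (Δ : Set X → ℝ) (h : H511.Surf.IsFibration (Cm (p + 1)) (Cm p) f Δ) :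
    ∃ H : ℕ → Set Y, (∀ k, IsThinSet (Cm p) (H k)) ∧ ∀ y, (∀ k, y ∉ H k) →
      ∀ (F : Type) [TopologicalSpace F] [ChartedSpace E₀ F] (i : F → X),
        H511.Surf.IsFibre (Cm (p + 1)) E₀ f y i →
        (TZ.S.kodR (Cm (p + 1)) E₀ i Δ + TZ.S.kodF (p + 1) p Δ (id : X → X) f ≤
            TZ.S.kodX (Cm (p + 1)) Δ ∧
          TZ.S.KapLe (Cm (p + 1)) (Cm p) f Δ (TZ.S.kodF (p + 1) p Δ (id : X → X) f)) ∧
        (NoExc (Cm (p + 1)) (Cm p) f → H511.Surf.Q1 (Cm (p + 1)) (Cm p) E₀ f Δ i) ∧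
        (ExcOne (Cm (p + 1)) (Cm p) f Δ → ∀ (X₀ Y₀ : Type) [tX : TopologicalSpace X₀]
          [cX : ChartedSpace (Cm (p + 1)) X₀] [tY : TopologicalSpace Y₀]
          [cY : ChartedSpace (Cm p) Y₀] (f₀ : X₀ → Y₀) (Δ₀ : Set X₀ → ℝ),
          TZ.S.IsStep (Cm (p + 1)) (Cm p) f Δ f₀ Δ₀ →
          TZ.S.kodR (Cm (p + 1)) E₀ i Δ +
              TZ.S.kap (Cm (p + 1)) (Cm p) ⟨X₀, Y₀, tX, tY, cX, cY, f₀, Δ₀⟩ ≤
            TZ.S.kodX (Cm (p + 1)) Δ₀) := by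
  obtain ⟨H, hH, hmain⟩ := H511.Gen.tvFin hE₀ f Δ h
  refine ⟨H, hH, fun y hy F _ _ i hi => ?_⟩
  obtain ⟨⟨hm, hk⟩, hq⟩ := hmain y hy F i hi
  refine ⟨⟨hm, hk⟩, hq, fun he X₀ Y₀ tX cX tY cY f₀ Δ₀ hs => ?_⟩
  have hcpt : CompactSpace X := h.compact
  obtain ⟨u, -, hu, -⟩ := id hs
  exact neat_finish hB hBir hPush (compact_of_modif hu) h hs he hm hk

end Vale.Agent.P281.H364.Gen
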